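import Vale.Agent.P054.Main

/-!
P054 (higher-dimensional distinct distances): the conjectured bound, pinned, for all sets which are
dense in a lattice cube, uniformly in the lattice.
-/

namespace Vale.Agent.Results.P054.LatticeCubes

open Finset

theorem result (r : ℕ) (hr : 3 ≤ r) : ∃ c : ℝ, 0 < c ∧
    ∀ (d : ℕ) (o : EuclideanSpace ℝ (Fin d)) (b : Fin r → EuclideanSpace ℝ (Fin d)),
    LinearIndependent ℝ b → ∀ (t : ℕ) (P : Finset (EuclideanSpace ℝ (Fin d))), 2 ≤ P.card →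
    (∀ p ∈ P, ∃ k : Fin r → ℤ, (∀ i, 1 ≤ k i ∧ k i ≤ t) ∧ p = o + ∑ i, (k i : ℝ) • b i) →
    c * ((P.card : ℝ) / (t : ℝ) ^ r) ^ 2 * (P.card : ℝ) ^ (2 / (r : ℝ)) ≤
        ((P.offDiag.image fun z => dist z.1 z.2).card : ℝ) ∧
    ∀ q, (∃ k : Fin r → ℤ, (∀ i, 1 ≤ k i ∧ k i ≤ t) ∧ q = o + ∑ i, (k i : ℝ) • b i) →
      c * ((P.card : ℝ) / (t : ℝ) ^ r) ^ 2 * (P.card : ℝ) ^ (2 / (r : ℝ)) ≤
        (((P.erase q).image fun p => dist q p).card : ℝ) := by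
  obtain ⟨k, rfl⟩ : ∃ k, r = k + 3 := ⟨r - 3, by omega⟩
  obtain ⟨c, hc, h⟩ := Vale.Agent.P054.pin_dist k
  refine ⟨c, hc, fun d o b hb t P hP2 hP => ?_⟩
  have h1 := h d o b hb t P hP2 hP
  refine ⟨?_, h1⟩
  obtain ⟨q, hq⟩ : P.Nonempty := by
    rw [← card_pos]
    omega
  refine (h1 q (hP q hq)).trans ?_
  have h2 : (P.erase q).image (fun p => dist q p) ⊆ P.offDiag.image (fun z => dist z.1 z.2) := by
    intro v hv
    rw [mem_image] at hv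
    obtain ⟨p, hp, rfl⟩ := hv
    rw [mem_erase] at hp
    exact mem_image.mpr ⟨(q, p), mem_offDiag.mpr ⟨hq, hp.2, hp.1.symm⟩, rfl⟩
  exact_mod_cast card_le_card h2

end Vale.Agent.Results.P054.LatticeCubes
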